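import Mathlib

namespace Vale.Agent.P343

open Module

/-- Linear relations on `V`. -/
structure LR (F V : Type) [Field F] [AddCommGroup V] [Module F V] where
  s : Submodule F (V × V)

variable {F V : Type} [Field F] [AddCommGroup V] [Module F V]

theorem LR.ext {x y : LR F V} (h : ∀ v w, (v, w) ∈ x.s ↔ (v, w) ∈ y.s) : x = y := by
  cases x; cases y; congr; ext ⟨v, w⟩; exact h v w

instance : Monoid (LR F V) where
  mul x y := ⟨{ carrier := {p | ∃ u, (p.1, u) ∈ x.s ∧ (u, p.2) ∈ y.s}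
                add_mem' := fun ⟨u, h1, h2⟩ ⟨u', h3, h4⟩ =>
                  ⟨u + u', x.s.add_mem h1 h3, y.s.add_mem h2 h4⟩
                zero_mem' := ⟨0, x.s.zero_mem, y.s.zero_mem⟩
                smul_mem' := fun c _ ⟨u, h1, h2⟩ => ⟨c • u, x.s.smul_mem c h1, y.s.smul_mem c h2⟩ }⟩
  one := ⟨LinearMap.eqLocus (LinearMap.fst F V V) (LinearMap.snd F V V)⟩
  mul_assoc _ _ _ := LR.ext fun _ _ => ⟨fun ⟨u, ⟨u', a, b⟩, c⟩ => ⟨u', a, u, b, c⟩,
    fun ⟨u, a, u', b, c⟩ => ⟨u', ⟨u, a, b⟩, c⟩⟩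
  one_mul _ := LR.ext fun v _ => ⟨fun ⟨_, a, b⟩ => by cases (a : v = _); exact b,
    fun h => ⟨v, rfl, h⟩⟩
  mul_one _ := LR.ext fun _ w => ⟨fun ⟨_, a, b⟩ => by cases (b : _ = w); exact a,
    fun h => ⟨w, h, rfl⟩⟩

theorem mem_mul {x y : LR F V} {v w : V} :
    (v, w) ∈ (x * y).s ↔ ∃ u, (v, u) ∈ x.s ∧ (u, w) ∈ y.s := Iff.rfl

theorem mem_one {v w : V} : (v, w) ∈ (1 : LR F V).s ↔ v = w := Iff.rfl

instance [Finite V] : Finite (LR F V) :=
  Finite.of_injective (fun x => (x.s : Set (V × V))) fun _ _ h =>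
    LR.ext fun v w => Set.ext_iff.1 h (v, w)

def fix (x : LR F V) : Submodule F V := x.s.comap (LinearMap.prod LinearMap.id LinearMap.id)

theorem mem_fix {x : LR F V} {v : V} : v ∈ fix x ↔ (v, v) ∈ x.s := Iff.rfl

theorem fix_mul {x y : LR F V} {v : V} (h : v ∈ fix x) (h' : v ∈ fix y) : v ∈ fix (x * y) :=
  ⟨v, h, h'⟩

theorem fix_pow {x : LR F V} {v : V} (h : v ∈ fix x) (n : ℕ) : v ∈ fix (x ^ n) := by
  induction n with
  | zero => rw [pow_zero]; rfl
  | succ n ih => rw [pow_succ]; exact fix_mul ih h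

theorem fix_of {e : LR F V} (he : e * e = e) {u v w : V} (h1 : (u, v) ∈ e.s) (h2 : (v, w) ∈ e.s) :
    v ∈ fix e := by
  have h3 : (u, w) ∈ e.s := he ▸ ⟨v, h1, h2⟩
  simpa [mem_fix] using e.s.add_mem h2 (e.s.sub_mem h1 h3)

theorem fix_le {e x : LR F V} (he : e * e = e) (hx : e * x * e = x) : fix x ≤ fix e := fun v hv => by
  obtain ⟨_, ⟨_, a, _⟩, b⟩ : (v, v) ∈ (e * x * e).s := hx.symm ▸ hv
  exact fix_of he b a

theorem rank_map {W U : Type} [AddCommGroup W] [Module F W] [AddCommGroup U] [Module F U]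
    [Module.Finite F W] (f : W →ₗ[F] U) (G : Submodule F W) :
    finrank F (G.map f) + finrank F (G ⊓ LinearMap.ker f : Submodule F W) = finrank F G := by
  rw [← (f.domRestrict G).finrank_range_add_finrank_ker, LinearMap.range_domRestrict,
    LinearMap.ker_domRestrict, ← Submodule.finrank_map_subtype_eq G, Submodule.map_comap_subtype]

variable [Module.Finite F V]

theorem conj {e g g' t : LR F V} (he : e * e = e) (h1 : g * g' = e) (h2 : g * e = g)
    (h3 : e * g' = g') :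
    finrank F (fix e ⊓ fix t : Submodule F V) ≤ finrank F (fix e ⊓ fix (g' * t * g) : Submodule F V) := by
  let G : Submodule F (V × V) := (g.s ⊓ g'.s.comap (LinearEquiv.prodComm F V V).toLinearMap) ⊓
    (fix e ⊓ fix t).comap (LinearMap.fst F V V)
  have a1 := rank_map (LinearMap.fst F V V) G
  have a2 := rank_map (LinearMap.snd F V V) G
  have a3 : fix e ⊓ fix t ≤ G.map (LinearMap.fst F V V) := fun v hv => by
    obtain ⟨w, b1, b2⟩ : (v, v) ∈ (g * g').s := h1.symm ▸ hv.1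
    exact ⟨(v, w), ⟨⟨b1, b2⟩, hv⟩, rfl⟩
  have a4 : G.map (LinearMap.snd F V V) ≤ fix e ⊓ fix (g' * t * g) := by
    rintro _ ⟨⟨v, w⟩, ⟨⟨b1, b2⟩, b3⟩, rfl⟩
    refine ⟨?_, v, ⟨v, b2, b3.2⟩, b1⟩
    obtain ⟨_, -, c1⟩ : (v, w) ∈ (g * e).s := h2.symm ▸ b1
    obtain ⟨_, c2, -⟩ : (w, v) ∈ (e * g').s := h3.symm ▸ b2
    exact fix_of he c1 c2
  have a5 : (G ⊓ LinearMap.ker (LinearMap.snd F V V)).map (LinearEquiv.prodComm F V V).toLinearMap ≤
      G ⊓ LinearMap.ker (LinearMap.fst F V V) := by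
    rintro _ ⟨⟨v, w⟩, ⟨⟨⟨b1, b2⟩, -⟩, b3⟩, rfl⟩
    obtain rfl : w = 0 := b3
    have c1 : (v, 0) ∈ e.s := h1 ▸ ⟨0, b1, g'.s.zero_mem⟩
    have c2 : (0, v) ∈ e.s := h1 ▸ ⟨0, g.s.zero_mem, b2⟩
    exact ⟨⟨⟨h2 ▸ ⟨0, g.s.zero_mem, c2⟩, (h3 ▸ ⟨0, c1, g'.s.zero_mem⟩ : (v, 0) ∈ g'.s)⟩,
      (fix e ⊓ fix t).zero_mem⟩, rfl⟩
  have a6 := Submodule.finrank_mono a5
  rw [LinearEquiv.finrank_map_eq] at a6
  have := Submodule.finrank_mono a3
  have := Submodule.finrank_mono a4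
  omega

theorem codim {A B C : Submodule F V} (hA : A ≤ C) (hB : B ≤ C) :
    finrank F A + finrank F B ≤ finrank F (A ⊓ B : Submodule F V) + finrank F C := by
  have := Submodule.finrank_sup_add_finrank_inf_eq A B
  have := Submodule.finrank_mono (sup_le hA hB)
  omega

theorem codim_inf {κ : Type} (s : Finset κ) (B : κ → Submodule F V) {A C : Submodule F V} {d : ℕ}
    (hA : A ≤ C) (hB : ∀ i, finrank F C ≤ finrank F (C ⊓ B i : Submodule F V) + d) :
    finrank F A ≤ finrank F (A ⊓ s.inf B : Submodule F V) + s.card * d := by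
  classical
  induction s using Finset.induction_on with
  | empty => rw [Finset.inf_empty, inf_top_eq]; omega
  | insert i s hi ih =>
    have h1 := codim (inf_le_left.trans hA : A ⊓ s.inf B ≤ C) (inf_le_left : C ⊓ B i ≤ C)
    have h2 : (A ⊓ s.inf B) ⊓ (C ⊓ B i) ≤ A ⊓ (insert i s).inf B := by
      rw [Finset.inf_insert]
      exact le_inf (inf_le_left.trans inf_le_left)
        (le_inf (inf_le_right.trans inf_le_right) (inf_le_left.trans inf_le_right))
    have := Submodule.finrank_mono h2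
    have := hB i
    rw [Finset.card_insert_of_notMem hi, add_mul]
    omega

theorem idem_pow {M : Type} [Monoid M] [Finite M] (x : M) :
    ∃ n, x ^ (n + 2) * x ^ (n + 2) = x ^ (n + 2) := by
  obtain ⟨a, b, hab, h⟩ := Finite.exists_ne_map_eq_of_infinite fun n : ℕ => x ^ n
  wlog hl : a < b generalizing a b
  · exact this b a hab.symm h.symm (by omega)
  obtain ⟨p, rfl⟩ := Nat.exists_eq_add_of_lt hl
  have k : ∀ m c, x ^ (a + c + m * (p + 1)) = x ^ (a + c) := fun m c => by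
    induction m with
    | zero => simp
    | succ m ih =>
      rw [show a + c + (m + 1) * (p + 1) = (a + p + 1) + (c + m * (p + 1)) by ring, pow_add, ← h,
        ← pow_add, ← add_assoc, ih]
  obtain ⟨c, hc⟩ : ∃ c, (a + 2) * (p + 1) = a + (c + 2) := ⟨(a + 2) * p, by ring⟩
  refine ⟨a + c, ?_⟩
  rw [← pow_add, add_assoc a c 2]
  nth_rewrite 2 [← hc]
  exact k _ _

/-- Binary relations. -/
structure BR (ι : Type) where
  r : ι → ι → Prop

theorem BR.ext {ι : Type} {x y : BR ι} (h : ∀ v w, x.r v w ↔ y.r v w) : x = y := by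
  cases x; cases y; congr; ext v w; exact h v w

instance {ι : Type} : Monoid (BR ι) where
  mul x y := ⟨fun p q => ∃ u, x.r p u ∧ y.r u q⟩
  one := ⟨Eq⟩
  mul_assoc _ _ _ := BR.ext fun _ _ => ⟨fun ⟨u, ⟨u', a, b⟩, c⟩ => ⟨u', a, u, b, c⟩,
    fun ⟨u, a, u', b, c⟩ => ⟨u', ⟨u, a, b⟩, c⟩⟩
  one_mul _ := BR.ext fun v _ => ⟨fun ⟨_, a, b⟩ => by cases (a : v = _); exact b,
    fun h => ⟨v, rfl, h⟩⟩
  mul_one _ := BR.ext fun _ w => ⟨fun ⟨_, a, b⟩ => by cases (b : _ = w); exact a,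
    fun h => ⟨w, h, rfl⟩⟩

theorem BR.mul_r {ι : Type} {x y : BR ι} {p q : ι} : (x * y).r p q ↔ ∃ u, x.r p u ∧ y.r u q := Iff.rfl

theorem BR.one_r {ι : Type} {p q : ι} : (1 : BR ι).r p q ↔ p = q := Iff.rfl

instance {ι : Type} [Finite ι] : Finite (BR ι) :=
  Finite.of_injective (fun x => x.r) fun _ _ h => BR.ext fun v w => iff_of_eq (congrFun₂ h v w)

def T {ι : Type} (i j : ι) : BR ι := ⟨fun p q => p = q ∨ (p = i ∧ q = j)⟩

def Pm {ι : Type} (σ : Equiv.Perm ι) : BR ι := ⟨fun p q => σ p = q⟩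

structure Good {ι : Type} (Φ : LR F V → BR ι → Prop) : Prop where
  mul : ∀ {s x s' x'}, Φ s x → Φ s' x' → Φ (s * s') (x * x')
  surj : ∀ x, ∃ s, Φ s x
  anti : ∀ {s x s' x'}, Φ s x → Φ s' x' → s.s ≤ s'.s → ∀ p q, x'.r p q → x.r p q

omit [Module.Finite F V] in
theorem Good.pow {ι : Type} {Φ : LR F V → BR ι → Prop} (h : Good Φ) {s x} (hs : Φ s x) (n : ℕ) :
    Φ (s ^ (n + 1)) (x ^ (n + 1)) := by
  induction n with
  | zero => simpa using hs
  | succ n ih => rw [pow_succ s, pow_succ x]; exact h.mul ih hs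

theorem corner {M : Type} [Monoid M] {e : M} (he : e * e = e) (s : M) (n : ℕ) :
    e * (e * s * e) ^ (n + 1) = (e * s * e) ^ (n + 1) ∧
      (e * s * e) ^ (n + 1) * e = (e * s * e) ^ (n + 1) := by
  constructor
  · rw [pow_succ', ← mul_assoc, ← mul_assoc, ← mul_assoc, he]
  · rw [pow_succ, mul_assoc, mul_assoc _ e e, he]

omit [Module.Finite F V] in
/-- An idempotent lift below `e`. -/
theorem Good.lift [Finite V] {ι : Type} {Φ : LR F V → BR ι → Prop} (h : Good Φ) {e s : LR F V} {x y}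
    (he : e * e = e) (h1 : Φ e x) (h2 : Φ s y) (h3 : x * y * x * (x * y * x) = x * y * x) :
    ∃ f, f * f = f ∧ e * f * e = f ∧ Φ f (x * y * x) ∧ fix e ⊓ fix s ≤ fix f := by
  obtain ⟨n, hn⟩ := idem_pow (e * s * e)
  refine ⟨_, hn, by rw [(corner he s _).1, (corner he s _).2], ?_, fun v hv =>
    fix_pow (fix_mul (fix_mul hv.1 hv.2) hv.1) _⟩
  have := h.pow (h.mul (h.mul h1 h2) h1) (n + 1)
  rwa [IsIdempotentElem.pow_succ_eq _ h3] at this

omit [Module.Finite F V] in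
theorem Good.res {ι : Type} {Φ : LR F V → BR ι → Prop} (h : Good Φ) (A B : Set ι) :
    Good fun s (y : BR {p // p ∉ A ∧ p ∉ B}) => ∃ x, Φ s x ∧
      (∀ p q, x.r p q → (q ∈ A → p ∈ A) ∧ (p ∈ B → q ∈ B)) ∧ ∀ p q, y.r p q ↔ x.r p q where
  mul := by
    rintro s y s' y' ⟨x, a1, a2, a3⟩ ⟨x', b1, b2, b3⟩
    refine ⟨_, h.mul a1 b1, fun p q ⟨u, c, d⟩ => ⟨fun h => (a2 _ _ c).1 ((b2 _ _ d).1 h),
      fun h => (b2 _ _ d).2 ((a2 _ _ c).2 h)⟩, fun p q => ⟨fun ⟨u, c, d⟩ =>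
        ⟨u, (a3 _ _).1 c, (b3 _ _).1 d⟩, fun ⟨u, c, d⟩ => ?_⟩⟩
    exact ⟨⟨u, fun h => p.2.1 ((a2 _ _ c).1 h), fun h => q.2.2 ((b2 _ _ d).2 h)⟩,
      (a3 _ _).2 c, (b3 _ _).2 d⟩
  surj y := by
    obtain ⟨s, hs⟩ := h.surj ⟨fun p q => ∃ hp hq, y.r ⟨p, hp⟩ ⟨q, hq⟩⟩
    exact ⟨s, _, hs, fun p q ⟨hp, hq, _⟩ => ⟨fun h => (hq.1 h).elim, fun h => (hp.2 h).elim⟩,
      fun p q => ⟨fun h => ⟨p.2, q.2, h⟩, fun ⟨_, _, h⟩ => h⟩⟩
  anti := by
    rintro s y s' y' ⟨x, a1, -, a3⟩ ⟨x', b1, -, b3⟩ hs p q hr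
    exact (a3 _ _).2 (h.anti a1 b1 hs _ _ ((b3 _ _).1 hr))

def U {ι : Type} (c : Option (Fin 4 ⊕ Fin 4) ↪ ι) (P : Finset (Fin 4 × Fin 4)) : BR ι :=
  ⟨fun p q => (p = q ∧ p ≠ c none) ∨ ∃ x ∈ P, p = c (some (.inl x.1)) ∧ q = c (some (.inr x.2))⟩

theorem U_mul {ι : Type} (c : Option (Fin 4 ⊕ Fin 4) ↪ ι) (P : Finset (Fin 4 × Fin 4))
    (x : Fin 4 × Fin 4) : U c P * (T (c (some (.inl x.1))) (c none) * T (c none) (c (some (.inr x.2)))) *
      U c P = U c (insert x P) := BR.ext fun p q => by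
  have := c.injective
  simp only [BR.mul_r, U, T, Finset.mem_insert]
  constructor
  · rintro ⟨u, ⟨v, ⟨rfl, a⟩ | ⟨y, a, rfl, rfl⟩, w, rfl | ⟨b, rfl⟩, rfl | ⟨b', rfl⟩⟩,
      ⟨rfl, d⟩ | ⟨y', d, d', rfl⟩⟩ <;> grind
  · rintro (⟨rfl, a⟩ | ⟨y, rfl | a, rfl, rfl⟩)
    · exact ⟨p, ⟨p, .inl ⟨rfl, a⟩, p, .inl rfl, .inl rfl⟩, .inl ⟨rfl, a⟩⟩
    · exact ⟨_, ⟨_, .inl ⟨rfl, by simp⟩, _, .inr ⟨rfl, rfl⟩, .inr ⟨rfl, rfl⟩⟩, .inl ⟨rfl, by simp⟩⟩
    · exact ⟨_, ⟨_, .inr ⟨y, a, rfl, rfl⟩, _, .inl rfl, .inl rfl⟩, .inl ⟨rfl, by simp⟩⟩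

theorem U_idem {ι : Type} (c : Option (Fin 4 ⊕ Fin 4) ↪ ι) (P : Finset (Fin 4 × Fin 4)) :
    U c P * U c P = U c P := BR.ext fun p q => by
  have := c.injective
  simp only [BR.mul_r, U]
  constructor
  · rintro ⟨u, ⟨rfl, a⟩ | ⟨y, a, rfl, rfl⟩, ⟨rfl, d⟩ | ⟨y', d, d', rfl⟩⟩ <;> grind
  · rintro (⟨rfl, a⟩ | ⟨y, a, rfl, rfl⟩)
    · exact ⟨p, .inl ⟨rfl, a⟩, .inl ⟨rfl, a⟩⟩
    · exact ⟨_, .inr ⟨y, a, rfl, rfl⟩, .inl ⟨rfl, by simp⟩⟩

theorem main [Finite V] (k : ℕ) : ∀ (ι : Type) [Fintype ι], 2 + 7 * k ≤ Fintype.card ι →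
    ∀ Φ : LR F V → BR ι → Prop, Good Φ → ∀ e t i j, i ≠ j → e * e = e → Φ e 1 → Φ t (T i j) →
    finrank F (fix e ⊓ fix t : Submodule F V) + 2 ^ k ≤ finrank F (fix e) := by
  induction k with
  | zero =>
    intro ι _ _ Φ h e t i j hij he h1 h2
    by_contra hc
    have a : fix e ⊓ fix t = fix e := Submodule.eq_of_le_of_finrank_le inf_le_left (by omega)
    refine hij (h.anti h1 (h.mul (h.mul h1 h2) h1) (fun ⟨v, w⟩ hv => ?_) i j
      (by rw [one_mul, mul_one]; exact Or.inr ⟨rfl, rfl⟩))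
    obtain ⟨u, b1, b2⟩ : (v, w) ∈ (e * e).s := he.symm ▸ hv
    exact ⟨u, ⟨u, b1, (a.ge (fix_of he b1 b2)).2⟩, b2⟩
  | succ k ih =>
    intro ι _ hι Φ h e0 t i j hij he0 h0 h2
    classical
    obtain ⟨d, hd⟩ := Nat.exists_eq_add_of_le
      (Submodule.finrank_mono (inf_le_left : fix e0 ⊓ fix t ≤ fix e0))
    obtain ⟨e, ⟨he, e1, h1⟩, hm⟩ := exists_minimalFor_of_wellFoundedLT
      (fun f => f * f = f ∧ e0 * f * e0 = f ∧ Φ f 1) (fun f => {s | f * s * f = s}.ncard)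
      ⟨e0, he0, by rw [he0, he0], h0⟩
    have mn : ∀ f, f * f = f → e * f * e = f → Φ f 1 → f = e := fun f a1 a2 a3 => by
      have b1 : e * f = f := by rw [← a2, ← mul_assoc, ← mul_assoc, he]
      have b2 : f * e = f := by rw [← a2, mul_assoc, he]
      have sub : {s | f * s * f = s} ⊆ {s | e * s * e = s} := fun s (hs : _ = _) => by
        change _ = _
        rw [← hs, ← mul_assoc, ← mul_assoc, b1, mul_assoc, b2]
      have b3 : e0 * f * e0 = f := by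
        have c1 : e0 * e = e := by rw [← e1, ← mul_assoc, ← mul_assoc, he0]
        have c2 : e * e0 = e := by rw [← e1, mul_assoc, he0]
        rw [← a2, ← mul_assoc, ← mul_assoc, c1, mul_assoc, c2]
      have := Set.eq_of_subset_of_ncard_le sub (hm ⟨a1, b3, a3⟩ (Set.ncard_le_ncard sub))
      have : f * e * f = e := this.ge (show e * e * e = e by rw [he, he])
      rw [← this, b2, a1]
    have d1 : finrank F (fix e) ≤ finrank F (fix e ⊓ fix t : Submodule F V) + d := by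
      have a := codim (fix_le he0 e1) (inf_le_left : fix e0 ⊓ fix t ≤ fix e0)
      have := Submodule.finrank_mono (inf_le_inf_left (fix e) (inf_le_right : fix e0 ⊓ fix t ≤ fix t))
      omega
    have cj : ∀ i' j', i' ≠ j' → ∃ A, Φ A (T i' j') ∧
        finrank F (fix e) ≤ finrank F (fix e ⊓ fix A : Submodule F V) + d := fun i' j' h' => by
      obtain ⟨σ, hσ⟩ := Equiv.Perm.exists_extending_pair ![i, j] ![i', j']
        (by intro a b; fin_cases a <;> fin_cases b <;> simp [hij, hij.symm])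
        (by intro a b; fin_cases a <;> fin_cases b <;> simp [h', h'.symm])
      obtain ⟨s, hs⟩ := h.surj (Pm σ)
      obtain ⟨n, hn⟩ := idem_pow (e * s * e)
      have a1 := h.mul (h.mul h1 hs) h1
      rw [one_mul, mul_one] at a1
      have u1 : Pm σ * Pm σ⁻¹ = 1 := BR.ext fun p q => by
        simp [BR.mul_r, Pm, BR.one_r]
      have u2 : Pm σ⁻¹ * Pm σ = 1 := BR.ext fun p q => by
        simp [BR.mul_r, Pm, BR.one_r]
      have a2 := h.pow a1 (n + 1)
      have a3 : Pm σ ^ (n + 2) = 1 := by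
        have a4 := h.mul a2 a2
        rw [hn] at a4
        exact (IsUnit.pow _ ⟨⟨_, _, u1, u2⟩, rfl⟩).mul_left_cancel ((BR.ext fun p q =>
          ⟨h.anti a2 a4 le_rfl p q, h.anti a4 a2 le_rfl p q⟩).trans (mul_one _).symm)
      have a5 := mn _ hn (by rw [(corner he s _).1, (corner he s _).2]) (a3 ▸ a2)
      have a6 : Pm σ ^ (n + 1) = Pm σ⁻¹ := by
        rw [← mul_one (Pm σ ^ (n + 1)), ← u1, ← mul_assoc, ← pow_succ, a3, one_mul]
      refine ⟨_, ?_, d1.trans (Nat.add_le_add_right (conj (g := e * s * e) he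
        (by rw [← pow_succ', a5]) (by rw [mul_assoc, he]) (corner he s n).1) d)⟩
      convert h.mul (h.mul (h.pow a1 n) h2) a1 using 1
      rw [a6]
      refine BR.ext fun p q => ?_
      have b1 : σ i = i' := hσ 0
      have b2 : σ j = j' := hσ 1
      obtain ⟨p, rfl⟩ := σ.surjective p
      obtain ⟨q, rfl⟩ := σ.surjective q
      simp [BR.mul_r, Pm, T, ← b1, ← b2]
    obtain ⟨c⟩ : Nonempty (Option (Fin 4 ⊕ Fin 4) ↪ ι) :=
      Function.Embedding.nonempty_of_card_le (by simp; omega)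
    choose A hA1 hA2 using fun x : Fin 4 ⊕ Fin 4 => cj
      (x.elim (fun _ => c (some x)) fun _ => c none) (x.elim (fun _ => c none) fun _ => c (some x))
      (by cases x <;> simp)
    obtain ⟨s, hs⟩ := h.surj (U c ∅)
    obtain ⟨f, f1, f2, f3, -⟩ := h.lift he h1 hs (by simp [U_idem])
    rw [one_mul, mul_one] at f3
    have a1 := codim_inf Finset.univ (fun x => fix (A x)) (fix_le he f2) hA2
    have chain : ∀ P : Finset (Fin 4 × Fin 4), ∃ u, u * u = u ∧ Φ u (U c P) ∧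
        fix f ⊓ Finset.univ.inf (fun x => fix (A x)) ≤ fix u ∧
        finrank F (fix u) + P.card * 2 ^ k ≤ finrank F (fix f) := fun P => by
      induction P using Finset.induction_on with
      | empty => exact ⟨f, f1, f3, inf_le_left, by simp⟩
      | insert x P hx ihP =>
        obtain ⟨u, u1, u2, u3, u4⟩ := ihP
        obtain ⟨u', v1, v2, v3, v4⟩ := h.lift u1 u2 (h.mul (hA1 (.inl x.1)) (hA1 (.inr x.2)))
          (by simp only [Sum.elim_inl, Sum.elim_inr, U_mul, U_idem])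
        simp only [Sum.elim_inl, Sum.elim_inr, U_mul] at v3
        refine ⟨u', v1, v3, fun v hv => v4 ⟨u3 hv, fix_mul
          (Finset.inf_le (f := fun x => fix (A x)) (Finset.mem_univ _) hv.2)
          (Finset.inf_le (f := fun x => fix (A x)) (Finset.mem_univ _) hv.2)⟩, ?_⟩
        let S : Finset ι := (Finset.univ.erase x.1).image fun i => c (some (.inl i))
        let S' : Finset ι := insert (c none) ((Finset.univ.erase x.2).image fun i => c (some (.inr i)))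
        have cl : ∀ P p q, (U c P).r p q → (q ∈ (S : Set ι) → p ∈ (S : Set ι)) ∧
            (p ∈ (S' : Set ι) → q ∈ (S' : Set ι)) := by
          rintro P p q (⟨rfl, -⟩ | ⟨y, -, rfl, rfl⟩) <;> simp [S, S']
        have := ih {p // p ∉ (S : Set ι) ∧ p ∉ (S' : Set ι)} ?_ _ (h.res S S') u u'
          ⟨c (some (.inl x.1)), by simp [S, S']⟩ ⟨c (some (.inr x.2)), by simp [S, S']⟩ (by simp) u1
          ⟨_, u2, cl _, ?_⟩ ⟨_, v3, cl _, ?_⟩
        · rw [inf_eq_right.2 (fix_le u1 v2)] at this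
          rw [Finset.card_insert_of_notMem hx, add_mul]; omega
        · have b1 : S.card ≤ 3 := Finset.card_image_le.trans (by simp)
          have b2 : S'.card ≤ 3 + 1 := (Finset.card_insert_le _ _).trans
            (Nat.add_le_add_right (Finset.card_image_le.trans (by simp)) 1)
          have b3 := Finset.card_union_le S S'
          have b4 := Finset.card_add_card_compl (S ∪ S')
          rw [Fintype.card_of_subtype (S ∪ S')ᶜ (by simp)]
          omega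
        · rintro ⟨p, p1, p2⟩ ⟨q, q1, q2⟩
          simp only [BR.one_r, U, Subtype.mk.injEq]
          refine ⟨fun a => .inl ⟨a, fun b => p2 (by simp [S', b])⟩, ?_⟩
          rintro (a | ⟨y, a, rfl, rfl⟩)
          · exact a.1
          · simp [S, S'] at p1 q2
            exact (hx ((Prod.ext p1 q2 : y = x) ▸ a)).elim
        · rintro ⟨p, p1, p2⟩ ⟨q, q1, q2⟩
          simp only [T, U, Subtype.mk.injEq]
          refine ⟨fun a => a.imp (fun a => ⟨a, fun b => p2 (by simp [S', b])⟩)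
            fun a => ⟨x, by simp, a⟩, ?_⟩
          rintro (a | ⟨y, a, rfl, rfl⟩)
          · exact .inl a.1
          · simp [S, S'] at p1 q2
            exact .inr (by simp [p1, q2])
    obtain ⟨u, -, -, u3, u4⟩ := chain Finset.univ
    have := Submodule.finrank_mono u3
    simp only [Finset.card_univ, Fintype.card_sum, Fintype.card_prod, Fintype.card_fin] at a1 u4
    omega

end Vale.Agent.P343
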